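import Mathlib

set_option linter.all false

/-!
# P209, necessity of the two-ball condition: the homotopy step

`F t`, `t` in an interval, is a continuous family of functions, homogeneous of degree two, on a
finite dimensional space, differentiable off the origin, without critical points on the level `0`
(off the origin).  Then for all `s t` there is a continuous odd map from `{F s < 0}` to `{F t < 0}`.
-/

namespace Vale.Agent.P209.H761

open Set Filter Topology Metric

section

variable {E : Type*} [NormedAddCommGroup E] [NormedSpace ℝ E]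

/-- pseudo-gradient of a functional with respect to a finite family of vectors -/
noncomputable def pg {ι : Type*} [Fintype ι] (b : ι → E) (D : E →L[ℝ] ℝ) : E :=
  ∑ i, D (b i) • b i

lemma pg_neg {ι : Type*} [Fintype ι] (b : ι → E) (D : E →L[ℝ] ℝ) : pg b (-D) = - pg b D := by
  simp [pg, Finset.sum_neg_distrib]

lemma pg_apply {ι : Type*} [Fintype ι] (b : ι → E) (D : E →L[ℝ] ℝ) :
    D (pg b D) = ∑ i, (D (b i)) ^ 2 := by
  simp [pg, map_sum, sq]

lemma pg_apply_nonneg {ι : Type*} [Fintype ι] (b : ι → E) (D : E →L[ℝ] ℝ) :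
    0 ≤ D (pg b D) := by
  rw [pg_apply]; exact Finset.sum_nonneg (fun i _ => sq_nonneg _)

lemma pg_continuous {ι : Type*} [Fintype ι] (b : ι → E) : Continuous (pg b) := by
  unfold pg
  fun_prop

lemma pg_apply_pos {ι : Type*} [Fintype ι] (b : Module.Basis ι ℝ E) (D : E →L[ℝ] ℝ)
    (hD : D ≠ 0) : 0 < D (pg b D) := by
  rcases (pg_apply_nonneg b D).lt_or_eq with h | h
  · exact h
  · exfalso
    apply hD
    rw [pg_apply] at h
    have h2 := (Finset.sum_eq_zero_iff_of_nonneg (fun i _ => sq_nonneg (D (b i)))).mp h.symm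
    have h3 : ∀ i, D (b i) = 0 := fun i => by
      have := h2 i (Finset.mem_univ i)
      exact pow_eq_zero_iff (two_ne_zero) |>.mp this
    have : (D : E →ₗ[ℝ] ℝ) = 0 := b.ext (fun i => by simpa using h3 i)
    ext x
    exact congrArg (fun f : E →ₗ[ℝ] ℝ => f x) this

variable [FiniteDimensional ℝ E]

/-- one gradient step (derivative normalised at the origin) -/
theorem exists_step_aux (F : E → ℝ) (D : E → E →L[ℝ] ℝ) (hD00 : D 0 = 0)
    (hom : ∀ r : ℝ, ∀ x, F (r • x) = r ^ 2 * F x)
    (hD : ∀ x, x ≠ 0 → HasFDerivAt F (D x) x) (hc : ContinuousOn D {0}ᶜ)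
    (hcrit : ∀ x, x ≠ 0 → F x = 0 → D x ≠ 0) :
    ∃ (φ : E → E) (η : ℝ), 0 < η ∧ ContinuousOn φ {0}ᶜ ∧ (∀ x, φ (-x) = - φ x) ∧
      (∀ x, x ≠ 0 → ‖φ x‖ ≤ 2) ∧ (∀ x, φ x = φ (‖x‖⁻¹ • x)) ∧
      ∀ x, ‖x‖ = 1 → F x < η → F (φ x) < -η := by
  classical
  set b := Module.finBasis ℝ E with hb
  set S : Set E := sphere (0 : E) 1 with hS
  have hSc : IsCompact S := isCompact_sphere 0 1
  have hS0 : ∀ x ∈ S, x ≠ 0 := by
    intro x hx h0
    rw [h0] at hx
    simp [hS] at hx
  set V : E → E := fun x => pg b (D x) with hV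
  have hVc : ContinuousOn V {0}ᶜ := (pg_continuous b).comp_continuousOn hc
  have hFc : ContinuousOn F {0}ᶜ := fun x hx => (hD x hx).continuousAt.continuousWithinAt
  -- oddness of the derivative
  have heven : ∀ x, F (-x) = F x := fun x => by
    have := hom (-1) x
    simpa using this
  have hDodd : ∀ x, x ≠ 0 → D (-x) = - D x := by
    intro x hx
    have h1 : HasFDerivAt F (D (-x)) (-x) := hD (-x) (neg_ne_zero.mpr hx)
    have h2 : HasFDerivAt (fun y => F (-y)) ((D (-x)).comp (-(ContinuousLinearMap.id ℝ E))) x :=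
      HasFDerivAt.comp x (by simpa using h1) ((hasFDerivAt_id x).neg)
    have h3 : (fun y => F (-y)) = F := funext heven
    rw [h3] at h2
    have h4 := h2.unique (hD x hx)
    rw [← h4]
    ext v
    simp
  have hVodd : ∀ x, x ≠ 0 → V (-x) = - V x := by
    intro x hx
    simp only [hV]
    rw [hDodd x hx, pg_neg]
  -- bound of V on the sphere
  obtain ⟨K, hK0, hK⟩ : ∃ K : ℝ, 0 < K ∧ ∀ x ∈ S, ‖V x‖ ≤ K := by
    obtain ⟨K, hK⟩ := hSc.exists_bound_of_continuousOn (hVc.mono (fun x hx => hS0 x hx))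
    exact ⟨max K 1, by positivity, fun x hx => (hK x hx).trans (le_max_left _ _)⟩
  -- lower bound of the slope near level zero
  obtain ⟨δ, hδ, e, he, hslope⟩ : ∃ δ : ℝ, 0 < δ ∧ ∃ e : ℝ, 0 < e ∧
      ∀ x ∈ S, |F x| ≤ δ → e ≤ D x (V x) := by
    have hcont : ContinuousOn (fun x => |F x| + D x (V x)) S := by
      apply ContinuousOn.add
      · exact (hFc.mono (fun x hx => hS0 x hx)).abs
      · exact (hc.mono (fun x hx => hS0 x hx)).clm_apply (hVc.mono (fun x hx => hS0 x hx))
    have hpos : ∀ x ∈ S, 0 < |F x| + D x (V x) := by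
      intro x hx
      by_cases h : F x = 0
      · have := pg_apply_pos b (D x) (hcrit x (hS0 x hx) h)
        have h2 := abs_nonneg (F x)
        simp only [hV]
        linarith
      · have := abs_pos.mpr h
        have h2 := pg_apply_nonneg b (D x)
        simp only [hV]
        linarith
    rcases S.eq_empty_or_nonempty with hSe | hSne
    · exact ⟨1, one_pos, 1, one_pos, fun x hx => by rw [hSe] at hx; exact absurd hx (by simp)⟩
    · obtain ⟨x0, hx0, hmin⟩ := hSc.exists_isMinOn hSne hcont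
      set m := |F x0| + D x0 (V x0) with hm
      have hmp : 0 < m := hpos x0 hx0
      refine ⟨m / 2, by positivity, m / 2, by positivity, ?_⟩
      intro x hx hFx
      have : m ≤ |F x| + D x (V x) := hmin hx
      linarith
  -- uniform control of the slope along the segment
  set A : Set E := {y : E | 1 / 2 ≤ ‖y‖ ∧ ‖y‖ ≤ 3 / 2} with hA
  have hA0 : ∀ y ∈ A, y ≠ 0 := by
    rintro y ⟨h1, _⟩ h0
    rw [h0, norm_zero] at h1
    linarith
  have hAc : IsCompact A := by
    apply (isCompact_closedBall (0 : E) (3 / 2)).of_isClosed_subset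
    · exact (isClosed_le continuous_const continuous_norm).inter
        (isClosed_le continuous_norm continuous_const)
    · rintro y ⟨_, h2⟩
      simpa using h2
  have hunif : UniformContinuousOn D A :=
    hAc.uniformContinuousOn_of_continuous (hc.mono (fun y hy => hA0 y hy))
  rw [Metric.uniformContinuousOn_iff] at hunif
  set w : ℝ := min (e / 2) (δ / 2) with hw
  have hw0 : 0 < w := by positivity
  obtain ⟨ρ, hρ, hun⟩ := hunif (w / K) (by positivity)
  set s : ℝ := min 1 (min (1 / (2 * K)) (ρ / (2 * K))) with hs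
  have hs0 : 0 < s := by positivity
  have hs1 : s ≤ 1 := min_le_left _ _
  have hsK : s * K ≤ 1 / 2 := by
    have : s ≤ 1 / (2 * K) := (min_le_right _ _).trans (min_le_left _ _)
    calc s * K ≤ 1 / (2 * K) * K := by gcongr
      _ = 1 / 2 := by field_simp
  have hsρ : s * K < ρ := by
    have : s ≤ ρ / (2 * K) := (min_le_right _ _).trans (min_le_right _ _)
    calc s * K ≤ ρ / (2 * K) * K := by gcongr
      _ = ρ / 2 := by field_simp
      _ < ρ := by linarith
  have hseg : ∀ x ∈ S, ∀ σ ∈ Icc (0 : ℝ) s, x - σ • V x ∈ A ∧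
      dist (x - σ • V x) x < ρ := by
    intro x hx σ hσ
    have hn : ‖x‖ = 1 := by simpa [hS] using hx
    have h1 : ‖σ • V x‖ ≤ s * K := by
      rw [norm_smul, Real.norm_of_nonneg hσ.1]
      exact mul_le_mul hσ.2 (hK x hx) (norm_nonneg _) hs0.le
    refine ⟨⟨?_, ?_⟩, ?_⟩
    · have := norm_sub_norm_le x (σ • V x)
      linarith
    · have := norm_sub_le x (σ • V x)
      linarith
    · rw [dist_eq_norm]
      have : x - σ • V x - x = -(σ • V x) := by abel
      rw [this, norm_neg]
      linarith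
  -- the decrease
  have hdec : ∀ x ∈ S, F (x - s • V x) ≤ F x - s * (D x (V x) - w) := by
    intro x hx
    have hxA : x ∈ A := by
      have hn : ‖x‖ = 1 := by simpa [hS] using hx
      exact ⟨by rw [hn]; norm_num, by rw [hn]; norm_num⟩
    set g : ℝ → ℝ := fun σ => F (x - σ • V x) with hg
    have hderiv : ∀ σ ∈ Icc (0 : ℝ) s, HasDerivAt g (-(D (x - σ • V x) (V x))) σ := by
      intro σ hσ
      have hne := hA0 _ (hseg x hx σ hσ).1
      have h1 : HasDerivAt (fun σ : ℝ => x - σ • V x) (-(V x)) σ := by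
        have := ((hasDerivAt_id σ).smul_const (V x)).const_sub x
        simpa using this
      have h2 := (hD _ hne).comp_hasDerivAt σ h1
      rw [map_neg] at h2
      exact h2
    have hbound : ∀ σ ∈ Icc (0 : ℝ) s, -(D (x - σ • V x) (V x)) ≤ -(D x (V x) - w) := by
      intro σ hσ
      have h1 := hun _ (hseg x hx σ hσ).1 x hxA (hseg x hx σ hσ).2
      rw [dist_eq_norm] at h1
      have h2 : |(D (x - σ • V x) - D x) (V x)| ≤ w / K * K := by
        calc |(D (x - σ • V x) - D x) (V x)| ≤ ‖D (x - σ • V x) - D x‖ * ‖V x‖ :=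
              (D (x - σ • V x) - D x).le_opNorm (V x)
          _ ≤ w / K * K := mul_le_mul h1.le (hK x hx) (norm_nonneg _) (by positivity)
      rw [div_mul_cancel₀ _ hK0.ne'] at h2
      rw [ContinuousLinearMap.sub_apply] at h2
      have := (abs_le.mp h2).1
      linarith
    -- mean value inequality
    have hmv : g s - g 0 ≤ (-(D x (V x) - w)) * (s - 0) := by
      apply Convex.image_sub_le_mul_sub_of_deriv_le (convex_Icc (0 : ℝ) s)
      · exact fun σ hσ => (hderiv σ hσ).continuousAt.continuousWithinAt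
      · intro σ hσ
        rw [interior_Icc] at hσ
        exact (hderiv σ ⟨hσ.1.le, hσ.2.le⟩).differentiableAt.differentiableWithinAt
      · intro σ hσ
        rw [interior_Icc] at hσ
        rw [(hderiv σ ⟨hσ.1.le, hσ.2.le⟩).deriv]
        exact hbound σ ⟨hσ.1.le, hσ.2.le⟩
      · exact left_mem_Icc.mpr hs0.le
      · exact right_mem_Icc.mpr hs0.le
      · exact hs0.le
    have hg0 : g 0 = F x := by simp [hg]
    rw [hg0, sub_zero] at hmv
    have : F (x - s • V x) = g s := rfl
    rw [this]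
    linarith [mul_comm s (D x (V x) - w)]
  -- the map
  refine ⟨fun x => ‖x‖⁻¹ • x - s • V (‖x‖⁻¹ • x), min (δ / 2) (s * e / 4), by positivity,
    ?_, ?_, ?_, ?_, ?_⟩
  · have hn : ContinuousOn (fun x : E => ‖x‖⁻¹ • x) {0}ᶜ := by
      apply ContinuousOn.smul
      · exact continuous_norm.continuousOn.inv₀ (fun x hx => norm_ne_zero_iff.mpr hx)
      · exact continuousOn_id
    apply hn.sub
    apply ContinuousOn.const_smul
    apply hVc.comp hn
    intro x hx
    simp only [mem_compl_iff, mem_singleton_iff] at hx ⊢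
    exact smul_ne_zero (inv_ne_zero (norm_ne_zero_iff.mpr hx)) hx
  · intro x
    by_cases hx : x = 0
    · have h0 : V 0 = 0 := by simp [hV, hD00, pg]
      subst hx
      simp [h0]
    · have h1 : ‖x‖⁻¹ • x ≠ 0 := smul_ne_zero (inv_ne_zero (norm_ne_zero_iff.mpr hx)) hx
      simp only [norm_neg, smul_neg]
      rw [hVodd _ h1]
      simp only [smul_neg]
      abel
  · intro x hx
    have hx1 : ‖x‖⁻¹ • x ∈ S := by
      simp only [hS, mem_sphere_iff_norm, sub_zero, norm_smul, norm_inv, norm_norm]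
      exact inv_mul_cancel₀ (norm_ne_zero_iff.mpr hx)
    have := (hseg _ hx1 s ⟨hs0.le, le_rfl⟩).1.2
    linarith
  · intro x
    by_cases hx : x = 0
    · subst hx; simp
    · have h1 : ‖‖x‖⁻¹ • x‖ = 1 := by
        rw [norm_smul, norm_inv, norm_norm]
        exact inv_mul_cancel₀ (norm_ne_zero_iff.mpr hx)
      simp only [h1, inv_one, one_smul]
  · intro x hx hFx
    have hxS : x ∈ S := by simp [hS, hx]
    simp only [hx, inv_one, one_smul]
    have h1 := hdec x hxS
    have hη1 : min (δ / 2) (s * e / 4) ≤ δ / 2 := min_le_left _ _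
    have hη2 : min (δ / 2) (s * e / 4) ≤ s * e / 4 := min_le_right _ _
    by_cases hF : |F x| ≤ δ
    · have h2 := hslope x hxS hF
      have h3 : s * (D x (V x) - w) ≥ s * (e / 2) := by
        apply mul_le_mul_of_nonneg_left _ hs0.le
        have : w ≤ e / 2 := min_le_left _ _
        linarith
      nlinarith
    · push Not at hF
      have h2 : F x < -δ := by
        rcases lt_abs.mp hF with h | h
        · linarith
        · linarith
      have h3 : 0 ≤ D x (V x) := pg_apply_nonneg b (D x)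
      have h4 : s * (D x (V x) - w) ≥ -(δ / 2) := by
        have : w ≤ δ / 2 := min_le_right _ _
        have h5 : s * (D x (V x) - w) ≥ s * (-w) :=
          mul_le_mul_of_nonneg_left (by linarith) hs0.le
        have h6 : s * (-w) ≥ -w := by nlinarith
        linarith
      linarith

/-- one gradient step -/
theorem exists_step (F : E → ℝ) (D : E → E →L[ℝ] ℝ)
    (hom : ∀ r : ℝ, ∀ x, F (r • x) = r ^ 2 * F x)
    (hD : ∀ x, x ≠ 0 → HasFDerivAt F (D x) x) (hc : ContinuousOn D {0}ᶜ)
    (hcrit : ∀ x, x ≠ 0 → F x = 0 → D x ≠ 0) :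
    ∃ (φ : E → E) (η : ℝ), 0 < η ∧ ContinuousOn φ {0}ᶜ ∧ (∀ x, φ (-x) = - φ x) ∧
      (∀ x, x ≠ 0 → ‖φ x‖ ≤ 2) ∧ (∀ x, φ x = φ (‖x‖⁻¹ • x)) ∧
      ∀ x, ‖x‖ = 1 → F x < η → F (φ x) < -η := by
  classical
  have hne : ∀ x, x ≠ 0 → Function.update D 0 0 x = D x := fun x hx =>
    Function.update_of_ne hx _ _
  apply exists_step_aux F (Function.update D 0 0) (by simp) hom
  · intro x hx
    rw [hne x hx]
    exact hD x hx
  · exact hc.congr (fun x hx => hne x hx)
  · intro x hx
    rw [hne x hx]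
    exact hcrit x hx

/-- there is an odd continuous map from `{F < 0}` to `{F' < 0}` -/
def OddMap (F F' : E → ℝ) : Prop :=
  ∃ φ : E → E, ContinuousOn φ {x | F x < 0} ∧ (∀ x, φ (-x) = - φ x) ∧
    ∀ x, F x < 0 → F' (φ x) < 0

omit [FiniteDimensional ℝ E] in
lemma OddMap.refl (F : E → ℝ) : OddMap F F :=
  ⟨id, continuousOn_id, fun _ => rfl, fun _ h => h⟩

omit [FiniteDimensional ℝ E] in
lemma OddMap.trans {F F' F'' : E → ℝ} (h : OddMap F F') (h' : OddMap F' F'') : OddMap F F'' := by
  obtain ⟨φ, h1, h2, h3⟩ := h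
  obtain ⟨ψ, g1, g2, g3⟩ := h'
  refine ⟨ψ ∘ φ, g1.comp h1 (fun x hx => h3 x hx), fun x => ?_, fun x hx => g3 _ (h3 x hx)⟩
  simp only [Function.comp_apply]
  rw [h2, g2]

/-- **The homotopy theorem**: no critical points at level `0` along a path of homogeneous functions
of degree two implies that the negative sets are related by odd continuous maps. -/
theorem oddMap_of_no_crit {a b : ℝ} (F : ℝ → E → ℝ) (D : ℝ → E → E →L[ℝ] ℝ)
    (hom : ∀ t ∈ Icc a b, ∀ r : ℝ, ∀ x, F t (r • x) = r ^ 2 * F t x)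
    (hF : ContinuousOn (fun q : ℝ × E => F q.1 q.2) (Icc a b ×ˢ sphere (0 : E) 1))
    (hD : ∀ t ∈ Icc a b, ∀ x, x ≠ 0 → HasFDerivAt (F t) (D t x) x)
    (hc : ∀ t ∈ Icc a b, ContinuousOn (D t) {0}ᶜ)
    (hcrit : ∀ t ∈ Icc a b, ∀ x, x ≠ 0 → F t x = 0 → D t x ≠ 0) {s t : ℝ} (hs : s ∈ Icc a b)
    (ht : t ∈ Icc a b) : OddMap (F s) (F t) := by
  have hcomp : IsCompact (Icc a b ×ˢ sphere (0 : E) 1) := isCompact_Icc.prod (isCompact_sphere 0 1)
  have hunif := hcomp.uniformContinuousOn_of_continuous hF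
  rw [Metric.uniformContinuousOn_iff] at hunif
  have hnorm : ∀ x : E, x ≠ 0 → ‖‖x‖⁻¹ • x‖ = 1 := by
    intro x hx
    rw [norm_smul, norm_inv, norm_norm]
    exact inv_mul_cancel₀ (norm_ne_zero_iff.mpr hx)
  have hzero : ∀ t ∈ Icc a b, F t 0 = 0 := by
    intro t ht
    have := hom t ht 0 0
    simpa using this
  have hscale : ∀ t ∈ Icc a b, ∀ x : E, x ≠ 0 → F t x = ‖x‖ ^ 2 * F t (‖x‖⁻¹ • x) := by
    intro t ht x hx
    have h1 := hom t ht ‖x‖ (‖x‖⁻¹ • x)
    rw [smul_inv_smul₀ (norm_ne_zero_iff.mpr hx)] at h1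
    exact h1
  -- nearby parameters
  have key : ∀ s ∈ Icc a b, ∀ᶠ t in 𝓝[Icc a b] s, OddMap (F s) (F t) ∧ OddMap (F t) (F s) := by
    intro s hs
    obtain ⟨φ, η, hη, hφc, hodd, hφ2, hφs, hφ⟩ :=
      exists_step (F s) (D s) (hom s hs) (hD s hs) (hc s hs) (hcrit s hs)
    obtain ⟨δ, hδ, hun⟩ := hunif (η / 4) (by positivity)
    have hev : ∀ᶠ t in 𝓝[Icc a b] s, dist t s < δ ∧ t ∈ Icc a b := by
      apply Filter.Eventually.and
      · exact mem_nhdsWithin_of_mem_nhds (Metric.ball_mem_nhds s hδ)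
      · exact self_mem_nhdsWithin
    filter_upwards [hev] with t ⟨htd, ht⟩
    have hclose : ∀ x : E, ‖x‖ = 1 → |F t x - F s x| < η / 4 := by
      intro x hx
      have hxS : x ∈ sphere (0 : E) 1 := by simp [hx]
      have := hun (t, x) ⟨ht, hxS⟩ (s, x) ⟨hs, hxS⟩ (by
        rw [Prod.dist_eq, dist_self]
        exact max_lt htd hδ)
      rwa [Real.dist_eq] at this
    have hclose2 : ∀ x : E, ‖x‖ ≤ 2 → |F t x - F s x| < η := by
      intro x hx
      by_cases hx0 : x = 0
      · rw [hx0, hzero t ht, hzero s hs]; simpa using hη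
      · rw [hscale t ht x hx0, hscale s hs x hx0, ← mul_sub, abs_mul,
          abs_of_nonneg (sq_nonneg ‖x‖)]
        have h1 := hclose _ (hnorm x hx0)
        have h2 : ‖x‖ ^ 2 ≤ 4 := by
          have := norm_nonneg x
          nlinarith
        have h3 : 0 < ‖x‖ ^ 2 := by
          have := norm_pos_iff.mpr hx0
          positivity
        calc ‖x‖ ^ 2 * |F t (‖x‖⁻¹ • x) - F s (‖x‖⁻¹ • x)| < ‖x‖ ^ 2 * (η / 4) := by
              exact mul_lt_mul_of_pos_left h1 h3
          _ ≤ 4 * (η / 4) := by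
              apply mul_le_mul_of_nonneg_right h2; positivity
          _ = η := by ring
    have hneg : ∀ t ∈ Icc a b, ∀ x : E, F t x < 0 → x ≠ 0 ∧ F t (‖x‖⁻¹ • x) < 0 := by
      intro t ht x hx
      have hx0 : x ≠ 0 := by
        rintro rfl
        rw [hzero t ht] at hx
        exact lt_irrefl _ hx
      refine ⟨hx0, ?_⟩
      rw [hscale t ht x hx0] at hx
      have h3 : 0 < ‖x‖ ^ 2 := by
        have := norm_pos_iff.mpr hx0
        positivity
      by_contra hcon
      push Not at hcon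
      have := mul_nonneg h3.le hcon
      linarith
    have hcont : ∀ t ∈ Icc a b, ContinuousOn φ {x | F t x < 0} := fun t ht =>
      hφc.mono (fun x hx => (hneg t ht x hx).1)
    constructor
    · refine ⟨φ, hcont s hs, hodd, ?_⟩
      intro x hx
      obtain ⟨hx0, hx1⟩ := hneg s hs x hx
      have h1 := hφ (‖x‖⁻¹ • x) (hnorm x hx0) (by linarith)
      rw [← hφs] at h1
      have h2 := abs_lt.mp (hclose2 (φ x) (hφ2 x hx0))
      linarith
    · refine ⟨φ, hcont t ht, hodd, ?_⟩
      intro x hx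
      obtain ⟨hx0, hx1⟩ := hneg t ht x hx
      have h0 := abs_lt.mp (hclose _ (hnorm x hx0))
      have h1 := hφ (‖x‖⁻¹ • x) (hnorm x hx0) (by linarith)
      rw [← hφs] at h1
      linarith
  exact isPreconnected_Icc.induction₂' (fun s t => OddMap (F s) (F t)) key
    (fun x y z _ _ _ h h' => h.trans h') hs ht

end

end Vale.Agent.P209.H761
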