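import Vale.Agent.P209.H710.Nec.Defs
import Vale.Agent.P209.H761.Homotopy

set_option linter.all false

/-!
# P209, NEC, row B: invariance of the index along a path without critical points
-/

namespace Vale.Agent.P209.H761

open Set H710.Nec

universe u

theorem OddMap.idx {W : Type u} [NormedAddCommGroup W] [NormedSpace ℝ W] {F F' : W → ℝ}
    (h : OddMap F F') (k : ℕ) (hk : Idx {x | F' x < 0} k) : Idx {x | F x < 0} k := by
  obtain ⟨φ, h1, h2, h3⟩ := h
  obtain ⟨g, g1, g2⟩ := hk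
  refine ⟨g ∘ φ, g1.comp h1 (fun x hx => h3 x hx), ?_⟩
  intro x hx
  have hφ : φ x ∈ {x | F' x < 0} := h3 x hx
  simp only [Function.comp_apply]
  rw [h2]
  exact g2 _ hφ

/-- Row B of NEC. -/
theorem B : B_statement.{u} := by
  intro W _ _ _ a b F D Γ hab hF hD hΓ hder hom homΓ hpos k
  have hc : ∀ t ∈ Icc a b, ContinuousOn (D t) {0}ᶜ := by
    intro t ht
    have h1 : ContinuousOn (fun x : W => ((t, x) : ℝ × W)) {0}ᶜ := by fun_prop
    exact hD.comp h1 (fun x _ => ⟨ht, mem_univ x⟩)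
  have hcrit : ∀ t ∈ Icc a b, ∀ x, x ≠ 0 → F t x = 0 → D t x ≠ 0 := by
    intro t ht x hx _ h0
    have := hpos t ht x hx
    rw [h0] at this
    simp at this
  have hFs : ContinuousOn (fun q : ℝ × W => F q.1 q.2) (Icc a b ×ˢ Metric.sphere (0 : W) 1) :=
    hF.mono (prod_mono_right (subset_univ _))
  have key : ∀ s ∈ Icc a b, ∀ t ∈ Icc a b, OddMap (F s) (F t) := fun s hs t ht =>
    oddMap_of_no_crit F D hom hFs (fun t ht x _ => hder t ht x) hc hcrit hs ht
  exact ⟨(key b (right_mem_Icc.mpr hab) a (left_mem_Icc.mpr hab)).idx k,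
    (key a (left_mem_Icc.mpr hab) b (right_mem_Icc.mpr hab)).idx k⟩

end Vale.Agent.P209.H761
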